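import Vale.Agent.P181.RH.H410.NearA
import Vale.Agent.P181.RH.H694.CoreU
import Vale.Agent.P181.RH.H283.ParU
import Vale.Agent.P181.RH.H237.NumU
import Vale.Agent.P181.RH.H467.Des
import Vale.Agent.P181.RH.H348.Close
import Vale.Agent.P181.RV.H809.AllU
import Vale.Agent.P181.HO.H207.All

set_option autoImplicit false

/-!
# P181, RHU: `NearA` without hypotheses
-/

namespace Vale.Agent.P181.RH.H622

open Vale.Agent.P181

theorem coreRHU : CoreRHU :=
  H694.coreRHU H283.parU (H348.lowRH_of H467.desRH) H237.numRHU RG.H452.half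

theorem nearA : NearA :=
  H410.nearA coreRHU RV.H809.corVU HO.uniYc FD.fatLog PLX.polyS

end Vale.Agent.P181.RH.H622
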